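import Vale.Agent.P344.Main

/-!
The discrete Fourier transform has linear circuits with `O(n (log n)^(1-δ))` gates.
-/

namespace Vale.Agent.Results.P344.BelowNLogN

open Vale.Agent.P344

/-- A gate reading from `m` previously computed values: `u + v`, `u - v` or `c * u`. -/
inductive Gate (m : ℕ) : Type
  | add : Fin m → Fin m → Gate m
  | sub : Fin m → Fin m → Gate m
  | smul : ℂ → Fin m → Gate m

/-- The value of a gate. -/
def Gate.value {m : ℕ} (val : Fin m → ℂ) : Gate m → ℂ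
  | .add u v => val u + val v
  | .sub u v => val u - val v
  | .smul c u => c * val u

/-- A linear circuit on `n` inputs with `g` gates, listed in topological order; each gate reads from
the `n` inputs, the constant `0` and the earlier gates. -/
inductive Circuit (n : ℕ) : ℕ → Type
  | nil : Circuit n 0
  | snoc {g : ℕ} : Circuit n g → Gate (n + 1 + g) → Circuit n (g + 1)

/-- All values computed on input `x`: the inputs, the constant `0`, then the gates in order. -/
def Circuit.values {n : ℕ} (x : Fin n → ℂ) : {g : ℕ} → Circuit n g → Fin (n + 1 + g) → ℂ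
  | _, .nil => Fin.snoc (α := fun _ => ℂ) x 0
  | _, .snoc c γ => Fin.snoc (α := fun _ => ℂ) (c.values x) (γ.value (c.values x))

/-- Designated computed values equal `F_n x` for every input `x`. -/
def ComputesDFT {n g : ℕ} (c : Circuit n g) : Prop :=
  ∃ out : Fin n → Fin (n + 1 + g), ∀ (x : Fin n → ℂ) (j : Fin n),
    c.values x (out j) =
      ∑ k : Fin n, Complex.exp (2 * Real.pi * Complex.I / n) ^ ((j : ℕ) * (k : ℕ)) * x k

/-- The least number of gates of a linear circuit computing `F_n`. -/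
noncomputable def L (n : ℕ) : ℕ := sInf {g : ℕ | ∃ c : Circuit n g, ComputesDFT c}

def avail {n g : ℕ} (c : Circuit n g) : Set ((Fin n → ℂ) → ℂ) :=
  Set.range fun i x => c.values x i

lemma avail_snoc {n g : ℕ} (c : Circuit n g) (γ : Gate (n + 1 + g)) :
    insert (fun x => γ.value (c.values x)) (avail c) ⊆ avail (c.snoc γ) := by
  rintro _ (rfl | ⟨i, rfl⟩)
  · exact ⟨Fin.last _, funext fun x => Fin.snoc_last (α := fun _ => ℂ) _ _⟩
  · exact ⟨i.castSucc, funext fun x => Fin.snoc_castSucc (α := fun _ => ℂ) _ _ _⟩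

lemma zero_avail {n g : ℕ} (c : Circuit n g) : 0 ∈ avail c := by
  induction c with
  | nil => exact ⟨Fin.last _, funext fun x => Fin.snoc_last (α := fun _ => ℂ) _ _⟩
  | snoc c γ ih => exact avail_snoc c γ (Or.inr ih)

lemma bridge {n k : ℕ} {S T : Set ((Fin n → ℂ) → ℂ)} (h : Reach S k T) :
    ∀ (g : ℕ) (c : Circuit n g), S ⊆ avail c →
      ∃ g', g' = g + k ∧ ∃ c' : Circuit n g', T ⊆ avail c' := by
  induction h with
  | done h =>
    intro g c hc
    exact ⟨g, rfl, c, fun t ht => (h t ht).elim (fun a => hc a) fun a => a ▸ zero_avail c⟩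
  | @step S T k f hf _ ih =>
    intro g c hc
    have z : ∀ u, u ∈ S ∨ u = 0 → ∃ i, (fun x => c.values x i) = u := fun u hu =>
      hu.elim (fun a => hc a) fun a => a ▸ zero_avail c
    obtain ⟨γ, hγ⟩ : ∃ γ : Gate (n + 1 + g), f = fun x => γ.value (c.values x) := by
      rcases hf with ⟨u, v, hu, hv, e⟩ | ⟨a, u, hu, e⟩
      · obtain ⟨i, rfl⟩ := z u hu
        obtain ⟨j, rfl⟩ := z v hv
        rcases e with e | e
        · exact ⟨.add i j, e⟩
        · exact ⟨.sub i j, e⟩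
      · obtain ⟨i, rfl⟩ := z u hu
        exact ⟨.smul a i, e⟩
    obtain ⟨g', e, c', h'⟩ := ih (g + 1) (c.snoc γ)
      ((Set.insert_subset_insert hc).trans (hγ ▸ avail_snoc c γ))
    exact ⟨g', by omega, c', h'⟩

lemma circuit_of_cost {n : ℕ} {y : ℝ} (h : Cost (Fd n) y) :
    ∃ (g : ℕ) (c : Circuit n g), ComputesDFT c ∧ (g : ℝ) ≤ y := by
  obtain ⟨k, hk, hr⟩ := h ((Fin n → ℂ) → ℂ) fun i x => x i
  obtain ⟨g, e, c, hc⟩ := bridge hr 0 .nil (by
    rintro _ ⟨i, rfl⟩
    exact ⟨i.castSucc, funext fun x => Fin.snoc_castSucc (α := fun _ => ℂ) _ _ _⟩)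
  choose out hout using fun j => hc ⟨j, rfl⟩
  refine ⟨g, c, ⟨out, fun x j => ?_⟩, by rw [e]; simpa using hk⟩
  refine (congrFun (hout j) x).trans ?_
  simp only [app, Finset.sum_apply, Pi.smul_apply, smul_eq_mul, Fd, ee]
  refine Finset.sum_congr rfl fun k _ => ?_
  rw [← Complex.exp_nat_mul]
  congr 2; push_cast; ring

theorem result :
    (∃ δ : ℝ, 0 < δ ∧ ∃ C : ℝ, ∀ n : ℕ, 2 ≤ n →
      (∃ (g : ℕ) (c : Circuit n g), ComputesDFT c ∧
        (g : ℝ) ≤ C * n * Real.logb 2 n ^ (1 - δ)) ∧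
      (L n : ℝ) ≤ C * n * Real.logb 2 n ^ (1 - δ)) ∧
    ¬ ∃ c : ℝ, 0 < c ∧ ∃ n₀ : ℕ, ∀ n : ℕ, n₀ ≤ n → c * n * Real.logb 2 n ≤ L n := by
  obtain ⟨δ, h0, h1, C, hC, h⟩ := cost_Fd
  have hL : ∀ n : ℕ, 2 ≤ n → (L n : ℝ) ≤ C * n * Real.logb 2 n ^ (1 - δ) := by
    intro n hn
    obtain ⟨g, c, hc, hg⟩ := circuit_of_cost (h n hn)
    have : L n ≤ g := Nat.sInf_le ⟨c, hc⟩
    exact le_trans (by exact_mod_cast this) hg
  refine ⟨⟨δ, h0, C, fun n hn => ⟨circuit_of_cost (h n hn), hL n hn⟩⟩, ?_⟩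
  rintro ⟨c, hc, n₀, hn⟩
  have ht : Filter.Tendsto (fun n : ℕ => Real.logb 2 n ^ δ) Filter.atTop Filter.atTop :=
    (tendsto_rpow_atTop h0).comp
      ((Real.tendsto_logb_atTop (by norm_num)).comp tendsto_natCast_atTop_atTop)
  obtain ⟨n, hn1, hn2, hn3⟩ := ((ht.eventually_gt_atTop (C / c)).and
    ((Filter.eventually_ge_atTop n₀).and (Filter.eventually_ge_atTop 2))).exists
  have a := (hn n hn2).trans (hL n hn3)
  have hn0 : (2 : ℝ) ≤ n := by exact_mod_cast hn3
  have hl : 0 < Real.logb 2 n := Real.logb_pos (by norm_num) (by linarith)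
  have e : Real.logb 2 n = Real.logb 2 n ^ δ * Real.logb 2 n ^ (1 - δ) := by
    rw [← Real.rpow_add hl]; simp
  have p : 0 < n * Real.logb 2 n ^ (1 - δ) := by positivity
  rw [div_lt_iff₀ hc] at hn1
  have b := mul_lt_mul_of_pos_right hn1 p
  have d : c * n * Real.logb 2 n =
      Real.logb 2 n ^ δ * c * (n * Real.logb 2 n ^ (1 - δ)) := by
    conv_lhs => rw [e]
    ring
  linarith

end Vale.Agent.Results.P344.BelowNLogN
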